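import Mathlib
import Vale.Agent.P154.Defs
import Vale.Agent.P154.Bdl.B6
import Vale.Agent.P154.Bdl.B10
import Vale.Agent.P154.Bdl.B11
import Vale.Agent.P154.H928.Defs
import Vale.Agent.P154.H928.GW
import Vale.Agent.P154.H928.Crit

/-!
The reconstruction threshold of the 3-state and 4-state Potts channels: the two tree models of the
question, all Galton-Watson trees and all locally finite trees.
-/

namespace Vale.Agent.Results.P154.UniversalTrees

open Vale.Agent.P154 Vale.Agent.P154.UT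
open scoped ENNReal

theorem result :
    -- (1) the question as posed: q = 3, rooted d-ary trees, all admissible lambda
    (∀ d : ℕ, 2 ≤ d → ∀ lam : ℝ, -1 / 2 ≤ lam → lam ≤ 1 →
        (Reconstruction (regularOffspring d) 3 lam ↔ 1 < (d : ℝ) * lam ^ 2) ∧
        (Nonreconstruction (regularOffspring d) 3 lam ↔ (d : ℝ) * lam ^ 2 ≤ 1)) ∧
    -- q = 3, Galton-Watson trees with Poisson(d) offspring, all admissible lambda
    (∀ d : ℝ, 0 < d → ∀ lam : ℝ, -1 / 2 ≤ lam → lam ≤ 1 →
        (Reconstruction (poissonOffspring d) 3 lam ↔ 1 < d * lam ^ 2) ∧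
        (Nonreconstruction (poissonOffspring d) 3 lam ↔ d * lam ^ 2 ≤ 1)) ∧
    -- q = 4, rooted d-ary trees, lambda ≥ 0
    (∀ d : ℕ, 2 ≤ d → ∀ lam : ℝ, 0 ≤ lam → lam ≤ 1 →
        (Reconstruction (regularOffspring d) 4 lam ↔ 1 < (d : ℝ) * lam ^ 2) ∧
        (Nonreconstruction (regularOffspring d) 4 lam ↔ (d : ℝ) * lam ^ 2 ≤ 1)) ∧
    -- q = 4, Galton-Watson trees with Poisson(d) offspring, lambda ≥ 0
    (∀ d : ℝ, 0 < d → ∀ lam : ℝ, 0 ≤ lam → lam ≤ 1 →
        (Reconstruction (poissonOffspring d) 4 lam ↔ 1 < d * lam ^ 2) ∧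
        (Nonreconstruction (poissonOffspring d) 4 lam ↔ d * lam ^ 2 ≤ 1)) ∧
    -- (2) q = 3, 4: Galton-Watson trees with an arbitrary offspring law
    (∀ q : ℕ, q = 3 ∨ q = 4 → ∀ ν : ℕ → ℝ, (∀ k, 0 ≤ ν k) → HasSum ν 1 →
      ∀ lam : ℝ, 0 ≤ lam → lam < 1 →
        (Reconstruction ν q lam ↔ 1 < offspringMean ν * ENNReal.ofReal (lam ^ 2)) ∧
        (Nonreconstruction ν q lam ↔ offspringMean ν * ENNReal.ofReal (lam ^ 2) ≤ 1)) ∧
    -- (3) q = 3, 4: arbitrary locally finite trees
    (∀ q : ℕ, q = 3 ∨ q = 4 → ∀ κ : List ℕ → ℕ, ∀ lam : ℝ, 0 ≤ lam → lam < 1 →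
        (1 < br κ * ENNReal.ofReal (lam ^ 2) → TreeReconstruction κ q lam) ∧
        (br κ * ENNReal.ofReal (lam ^ 2) < 1 → TreeNonreconstruction κ q lam) ∧
        ((∀ ε : ℝ, 0 < ε → ∃ Γ : Finset (List ℕ), IsCutset κ Γ ∧
            ∑ x ∈ Γ, (lam ^ 2) ^ x.length < ε) → TreeNonreconstruction κ q lam) ∧
        (∑' n : ℕ, (ENNReal.ofReal ((lam ^ 2) ^ n * levelSize n κ))⁻¹ ^ 2 = ⊤ →
            TreeNonreconstruction κ q lam)) := by
  refine ⟨fun d hd lam h0 h1 => ?_, fun d hd lam h0 h1 => full_poisson hd h0 h1,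
    fun d hd lam h0 h1 => ?_, fun d hd lam h0 h1 => ?_, ?_, ?_⟩
  · exact full_regular hd h0 h1 fun hneg hks => nonrec_regular_af h0 hneg hks
  · have hl : -1 / (((4 : ℕ) : ℝ) - 1) ≤ lam := (neg_inv_le_zero (by norm_num)).trans h0
    have h := ferro_regular Q4.isCert4 (by norm_num) hd h0 h1
    have h2 := reconstruction_iff (q := 4) (by norm_num) hl h1 (regular_nonneg d)
      (regular_hasSum d)
    refine ⟨h, ?_⟩
    rw [← not_lt, ← h, h2, not_not]
  · have hl : -1 / (((4 : ℕ) : ℝ) - 1) ≤ lam := (neg_inv_le_zero (by norm_num)).trans h0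
    have h := ferro_poisson Q4.isCert4 (by norm_num) hd h0 h1
    have h2 := reconstruction_iff (q := 4) (by norm_num) hl h1 (poisson_nonneg hd.le)
      (poisson_hasSum d)
    refine ⟨h, ?_⟩
    rw [← not_lt, ← h, h2, not_not]
  · intro q hq ν hν hs lam h0 h1
    have hq2 : 2 ≤ q := by rcases hq with rfl | rfl <;> norm_num
    have hl : -1 / ((q : ℝ) - 1) ≤ lam := (neg_inv_le_zero hq2).trans h0
    have hiff := reconstruction_iff (q := q) (by omega) hl h1.le hν hs
    have hnon : offspringMean ν * ENNReal.ofReal (lam ^ 2) ≤ 1 → Nonreconstruction ν q lam := by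
      intro hm
      rcases hq with rfl | rfl
      · exact gw_nonreconstruction Q3.isCert3 (by norm_num) hν hs h0 h1 hm
      · exact gw_nonreconstruction Q4.isCert4 (by norm_num) hν hs h0 h1 hm
    have hrec : 1 < offspringMean ν * ENNReal.ofReal (lam ^ 2) → Reconstruction ν q lam :=
      fun hm => gw_reconstruction hν hs hq2 hl h1.le hm
    constructor
    · refine ⟨fun hr => ?_, hrec⟩
      by_contra hcon
      exact (hiff.1 hr) (hnon (not_lt.1 hcon))
    · refine ⟨fun hn => ?_, hnon⟩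
      by_contra hcon
      exact (hiff.1 (hrec (not_le.1 hcon))) hn
  · intro q hq κ lam h0 h1
    have hq2 : 2 ≤ q := by rcases hq with rfl | rfl <;> norm_num
    have hl : -1 / ((q : ℝ) - 1) ≤ lam := (neg_inv_le_zero hq2).trans h0
    refine ⟨fun hm => tree_reconstruction hq2 hl h1.le hm, ?_, ?_, ?_⟩
    · intro hm
      rcases hq with rfl | rfl
      · exact tree_nonreconstruction_br Q3.isCert3 (by norm_num) h0 h1 hm
      · exact tree_nonreconstruction_br Q4.isCert4 (by norm_num) h0 h1 hm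
    · intro hm
      rcases hq with rfl | rfl
      · exact tree_nonreconstruction_cut Q3.isCert3 (by norm_num) h0 h1 hm
      · exact tree_nonreconstruction_cut Q4.isCert4 (by norm_num) h0 h1 hm
    · intro hm
      rcases hq with rfl | rfl
      · exact tree_nonreconstruction_crit Q3.isCert3 (by norm_num) h0 h1 hm
      · exact tree_nonreconstruction_crit Q4.isCert4 (by norm_num) h0 h1 hm

end Vale.Agent.Results.P154.UniversalTrees
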